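import Mathlib
import Vale.Agent.P026.H267.Main

/-!
# Zeros in multiples of the Vinogradov–Korobov region

Consequences of the density theorem `Vale.Agent.P026.H267.density`: uniform constants for the
`K`-fold region, and the count of zeros violating the `K`-fold region at their own conductor and
height.
-/

open Finset

namespace Vale.Agent.P026.H441

open Vale.Agent.P026.H267
open Vale.Agent.P026.H392 (LL)

/-- `(log T)^{2/3} (log log T)^{1/3}`. -/
noncomputable def nu (T : ℝ) : ℝ :=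
  Real.log T ^ (2 / 3 : ℝ) * Real.log (Real.log T) ^ (1 / 3 : ℝ)

lemma LL_eq (Q T : ℝ) : LL Q T = Real.log Q + nu T := rfl

lemma nu_pos {T : ℝ} (hT : 3 ≤ T) : 0 < nu T := by
  have h1 := one_lt_log hT
  have h2 : 0 < Real.log (Real.log T) := Real.log_pos h1
  unfold nu
  positivity

lemma nu_mono {S T : ℝ} (hS : 3 ≤ S) (hST : S ≤ T) : nu S ≤ nu T := by
  have h := LL_one_mono hS hST
  rw [LL_one, LL_one] at h
  exact h

lemma nu_le_log {T : ℝ} (hT : 3 ≤ T) : nu T ≤ Real.log T := by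
  have h1 := one_lt_log hT
  have h2 : 0 < Real.log (Real.log T) := Real.log_pos h1
  have h3 : Real.log (Real.log T) ≤ Real.log T := by
    have := Real.log_le_sub_one_of_pos (by linarith : 0 < Real.log T)
    linarith
  have h0 : 0 < Real.log T := by linarith
  calc nu T = Real.log T ^ (2 / 3 : ℝ) * Real.log (Real.log T) ^ (1 / 3 : ℝ) := rfl
    _ ≤ Real.log T ^ (2 / 3 : ℝ) * Real.log T ^ (1 / 3 : ℝ) := by gcongr
    _ = Real.log T := by rw [← Real.rpow_add h0]; norm_num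

/-- The conductor `log q + ν(|Im ρ| + 3)` attached to a pair `(χ, ρ)`. -/
noncomputable def ell (x : CharIdx × ℂ) : ℝ := Real.log ((x.1.1 : ℕ) : ℝ) + nu (|x.2.im| + 3)

lemma one_le_mod (x : CharIdx × ℂ) : (1 : ℝ) ≤ ((x.1.1 : ℕ) : ℝ) := by
  exact_mod_cast x.1.1.pos

lemma log_mod_nonneg (x : CharIdx × ℂ) : 0 ≤ Real.log ((x.1.1 : ℕ) : ℝ) :=
  Real.log_nonneg (one_le_mod x)

lemma three_le (x : CharIdx × ℂ) : (3 : ℝ) ≤ |x.2.im| + 3 := by
  have := abs_nonneg x.2.im
  linarith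

lemma nu_three_le_ell (x : CharIdx × ℂ) : nu 3 ≤ ell x := by
  have h1 := log_mod_nonneg x
  have h2 := nu_mono le_rfl (three_le x)
  unfold ell
  linarith

/-- `(χ, ρ)` violates the `K`-fold region at its own conductor and height. -/
def Viol (K : ℝ) (x : CharIdx × ℂ) : Prop :=
  x.1.2.IsPrimitive ∧ 3 / 4 ≤ x.2.re ∧ 1 - K / ell x ≤ x.2.re

/-- One block. -/
lemma block {C : ℝ} (h : Density C) {K : ℝ} (hK : 0 ≤ K) {l : ℝ} (hl : 0 < l)
    (P : Finset (CharIdx × ℂ)) (hP : ∀ x ∈ P, Viol K x ∧ l ≤ ell x ∧ ell x ≤ 2 * l) :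
    ∑ x ∈ P, (zmul x : ℝ) ≤ C * Real.exp (C * (4 * K + (4 * K) ^ (3 / 2 : ℝ) * k3)) := by
  classical
  have hC := h.1
  rcases P.eq_empty_or_nonempty with he | hne
  · rw [he, Finset.sum_empty]
    positivity
  obtain ⟨a, ha, ha'⟩ := P.exists_max_image (fun x => ((x.1.1 : ℕ) : ℝ)) hne
  obtain ⟨b, hb, hb'⟩ := P.exists_max_image (fun x => |x.2.im| + 3) hne
  set Q : ℝ := ((a.1.1 : ℕ) : ℝ) with hQ
  set T : ℝ := |b.2.im| + 3 with hT
  have hQ1 : 1 ≤ Q := one_le_mod a
  have hT3 : 3 ≤ T := three_le b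
  have h1 : Real.log Q ≤ 2 * l := by
    have h2 := (hP a ha).2.2
    have h3 := nu_pos (three_le a)
    unfold ell at h2
    linarith
  have h2 : nu T ≤ 2 * l := by
    have h3 := (hP b hb).2.2
    have h4 := log_mod_nonneg b
    unfold ell at h3
    linarith
  have hLL : LL Q T ≤ 4 * l := by
    rw [LL_eq]
    linarith
  have hLpos : 0 < LL Q T := LL_pos hQ1 hT3
  apply kfold_finite h (4 * K) (by positivity) Q hQ1 T hT3 P
  intro x hx
  obtain ⟨⟨hprim, hre1, hre2⟩, hl1, hl2⟩ := hP x hx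
  refine ⟨ha' x hx, hprim, ?_, ?_⟩
  · have hell : 0 < ell x := by linarith
    have hcomp : K / ell x ≤ 4 * K / LL Q T := by
      rw [div_le_div_iff₀ hell hLpos]
      have h5 : LL Q T ≤ 4 * ell x := by linarith
      calc K * LL Q T ≤ K * (4 * ell x) := by gcongr
        _ = 4 * K * ell x := by ring
    rcases min_choice (1 / 4 : ℝ) (4 * K / LL Q T) with h5 | h5
    · rw [h5]; linarith
    · rw [h5]; linarith
  · have h6 : |x.2.im| + 3 ≤ T := hb' x hx
    linarith

/-- Blocks up to `2^n ν(3)`. -/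
lemma blocks {C : ℝ} (h : Density C) {K : ℝ} (hK : 0 ≤ K) (n : ℕ) :
    ∀ S : Finset (CharIdx × ℂ), (∀ x ∈ S, Viol K x ∧ ell x ≤ 2 ^ n * nu 3) →
      ∑ x ∈ S, (zmul x : ℝ) ≤
        ((n : ℝ) + 1) * (C * Real.exp (C * (4 * K + (4 * K) ^ (3 / 2 : ℝ) * k3))) := by
  classical
  have hC := h.1
  have h3 : 0 < nu 3 := nu_pos le_rfl
  induction n with
  | zero =>
    intro S hS
    have h1 := block h hK h3 S (fun x hx => ⟨(hS x hx).1, nu_three_le_ell x, by
      have := (hS x hx).2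
      rw [pow_zero, one_mul] at this
      linarith⟩)
    simpa using h1
  | succ n ih =>
    intro S hS
    have h1 := ih (S.filter (fun x => ell x ≤ 2 ^ n * nu 3)) (by
      intro x hx
      rw [Finset.mem_filter] at hx
      exact ⟨(hS x hx.1).1, hx.2⟩)
    have h2 := block h hK (l := 2 ^ n * nu 3) (by positivity)
      (S.filter (fun x => ¬ ell x ≤ 2 ^ n * nu 3)) (by
      intro x hx
      rw [Finset.mem_filter] at hx
      refine ⟨(hS x hx.1).1, (not_le.1 hx.2).le, ?_⟩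
      have := (hS x hx.1).2
      rw [pow_succ'] at this
      linarith)
    rw [← Finset.sum_filter_add_sum_filter_not S (fun x => ell x ≤ 2 ^ n * nu 3)]
    push_cast
    linarith

lemma rpow_four {K : ℝ} (hK : 0 ≤ K) : (4 * K) ^ (3 / 2 : ℝ) = 8 * K ^ (3 / 2 : ℝ) := by
  rw [Real.mul_rpow (by norm_num) hK]
  congr 1
  rw [show (4 : ℝ) = 2 ^ (2 : ℝ) by norm_num, ← Real.rpow_mul (by norm_num)]
  norm_num

/-- Finite form of the count of violators. -/
theorem violators_finite {C : ℝ} (h : Density C) : ∃ A : ℝ, 0 < A ∧ ∀ K : ℝ, 0 ≤ K →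
    ∀ Q : ℝ, 1 ≤ Q → ∀ T : ℝ, 3 ≤ T → ∀ S : Finset (CharIdx × ℂ),
      (∀ x ∈ S, Viol K x ∧ ((x.1.1 : ℕ) : ℝ) ≤ Q ∧ |x.2.im| ≤ T) →
      ∑ x ∈ S, (zmul x : ℝ) ≤ A * Real.exp (A * (K + K ^ (3 / 2 : ℝ))) *
        (1 + Real.log (Real.log (Q * T))) := by
  classical
  have hC := h.1
  have hk3 := k3_nonneg
  have h3 : 0 < nu 3 := nu_pos le_rfl
  have hl2 : 0 < Real.log 2 := Real.log_pos (by norm_num)
  set A : ℝ := 3 + |Real.log (nu 3)| / Real.log 2 + 1 / Real.log 2 with hA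
  have hA3 : 3 ≤ A := by
    have : 0 ≤ |Real.log (nu 3)| / Real.log 2 + 1 / Real.log 2 := by positivity
    linarith
  refine ⟨(A + 8) * (C * (1 + k3)), by positivity, ?_⟩
  intro K hK Q hQ T hT S hS
  set u : ℝ := Real.log (Q * T) with hu
  have hlT := one_lt_log hT
  have hlQ := Real.log_nonneg hQ
  have hu' : u = Real.log Q + Real.log T := by
    rw [hu, Real.log_mul (by linarith) (by linarith)]
  have hu1 : 1 < u := by linarith
  have hlu : 0 < Real.log u := Real.log_pos hu1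
  have hlT3 : Real.log (T + 3) ≤ 2 * Real.log T := by
    have h1 : T + 3 ≤ T ^ 2 := by nlinarith
    calc Real.log (T + 3) ≤ Real.log (T ^ 2) := Real.log_le_log (by linarith) h1
      _ = 2 * Real.log T := by rw [Real.log_pow]; norm_num
  have hell : ∀ x ∈ S, ell x ≤ 2 * u := by
    intro x hx
    obtain ⟨_, hq, him⟩ := hS x hx
    have h1 : Real.log ((x.1.1 : ℕ) : ℝ) ≤ Real.log Q :=
      Real.log_le_log (by have := one_le_mod x; linarith) hq
    have h2 : nu (|x.2.im| + 3) ≤ Real.log (T + 3) :=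
      (nu_mono (three_le x) (by linarith)).trans (nu_le_log (by linarith))
    unfold ell
    linarith
  have hν : nu 3 ≤ 2 * u := by
    have h1 := nu_le_log (T := 3) le_rfl
    have h2 : Real.log 3 ≤ Real.log T := Real.log_le_log (by norm_num) hT
    linarith
  set y : ℝ := 2 * u / nu 3 with hy
  have hy1 : 1 ≤ y := by rw [hy, le_div_iff₀ h3]; linarith
  set n : ℕ := ⌈Real.log y / Real.log 2⌉₊ with hn
  have hly : 0 ≤ Real.log y := Real.log_nonneg hy1
  have hn1 : Real.log y / Real.log 2 ≤ n := Nat.le_ceil _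
  have hn2 : (n : ℝ) < Real.log y / Real.log 2 + 1 := Nat.ceil_lt_add_one (by positivity)
  have hyn : y ≤ 2 ^ n := by
    rw [div_le_iff₀ hl2] at hn1
    rw [← Real.log_le_log_iff (by linarith) (by positivity), Real.log_pow]
    exact hn1
  have hS' : ∀ x ∈ S, Viol K x ∧ ell x ≤ 2 ^ n * nu 3 := by
    intro x hx
    refine ⟨(hS x hx).1, (hell x hx).trans ?_⟩
    rw [hy, div_le_iff₀ h3] at hyn
    exact hyn
  have hmain := blocks h hK n S hS'
  have hlogy : Real.log y = Real.log 2 + Real.log u - Real.log (nu 3) := by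
    rw [hy, Real.log_div (by positivity) h3.ne', Real.log_mul (by norm_num) (by linarith)]
  have hnA : (n : ℝ) + 1 ≤ A * (1 + Real.log u) := by
    have h1 : Real.log y / Real.log 2 ≤ 1 + Real.log u / Real.log 2 + |Real.log (nu 3)| / Real.log 2 := by
      rw [hlogy]
      have h2 := neg_abs_le (Real.log (nu 3))
      have h4 : Real.log 2 + Real.log u - Real.log (nu 3)
          ≤ Real.log 2 + Real.log u + |Real.log (nu 3)| := by linarith
      calc (Real.log 2 + Real.log u - Real.log (nu 3)) / Real.log 2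
          ≤ (Real.log 2 + Real.log u + |Real.log (nu 3)|) / Real.log 2 := by gcongr
        _ = 1 + Real.log u / Real.log 2 + |Real.log (nu 3)| / Real.log 2 := by field_simp
    have h5 : 0 ≤ |Real.log (nu 3)| / Real.log 2 := by positivity
    have h6 : Real.log u / Real.log 2 = 1 / Real.log 2 * Real.log u := by ring
    have h7 : 0 ≤ 1 / Real.log 2 := by positivity
    rw [h6] at h1
    have h8 : 0 ≤ |Real.log (nu 3)| / Real.log 2 * Real.log u := by positivity
    rw [hA]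
    nlinarith
  have hX : 0 ≤ K + K ^ (3 / 2 : ℝ) := by positivity
  have hexp : C * Real.exp (C * (4 * K + (4 * K) ^ (3 / 2 : ℝ) * k3))
      ≤ C * Real.exp ((A + 8) * (C * (1 + k3)) * (K + K ^ (3 / 2 : ℝ))) := by
    apply mul_le_mul_of_nonneg_left _ hC.le
    apply Real.exp_le_exp.2
    rw [rpow_four hK]
    have hKp : 0 ≤ K ^ (3 / 2 : ℝ) := by positivity
    have e1 : 4 * K + 8 * K ^ (3 / 2 : ℝ) * k3 ≤ 8 * (1 + k3) * (K + K ^ (3 / 2 : ℝ)) := by
      have : 0 ≤ k3 * K := by positivity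
      nlinarith
    calc C * (4 * K + 8 * K ^ (3 / 2 : ℝ) * k3)
        ≤ C * (8 * (1 + k3) * (K + K ^ (3 / 2 : ℝ))) := by gcongr
      _ = 8 * (C * (1 + k3)) * (K + K ^ (3 / 2 : ℝ)) := by ring
      _ ≤ (A + 8) * (C * (1 + k3)) * (K + K ^ (3 / 2 : ℝ)) := by
          gcongr
          linarith
  set E := Real.exp ((A + 8) * (C * (1 + k3)) * (K + K ^ (3 / 2 : ℝ))) with hE
  have hE0 : 0 < E := Real.exp_pos _
  calc ∑ x ∈ S, (zmul x : ℝ)
      ≤ ((n : ℝ) + 1) * (C * Real.exp (C * (4 * K + (4 * K) ^ (3 / 2 : ℝ) * k3))) := hmain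
    _ ≤ (A * (1 + Real.log u)) * (C * E) := by gcongr
    _ = A * C * E * (1 + Real.log u) := by ring
    _ ≤ (A + 8) * (C * (1 + k3)) * E * (1 + Real.log u) := by
        gcongr
        · linarith
        · nlinarith

/-- The `K`-fold region, finite form with uniform constants. -/
theorem kfold_uniform {C : ℝ} (h : Density C) {K : ℝ} (hK : 0 ≤ K) {Q T : ℝ} (hQ : 1 ≤ Q)
    (hT : 3 ≤ T) (S : Finset (CharIdx × ℂ))
    (hS : ∀ x ∈ S, InRegion Q T (min (1 / 4) (K / LL Q T)) x) :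
    ∑ x ∈ S, (zmul x : ℝ) ≤
      C * (1 + k3) * Real.exp (C * (1 + k3) * (K + K ^ (3 / 2 : ℝ))) := by
  have hC := h.1
  have hk3 := k3_nonneg
  refine (kfold_finite h K hK Q hQ T hT S hS).trans ?_
  have hKp : 0 ≤ K ^ (3 / 2 : ℝ) := by positivity
  have e1 : K + K ^ (3 / 2 : ℝ) * k3 ≤ (1 + k3) * (K + K ^ (3 / 2 : ℝ)) := by
    have : 0 ≤ k3 * K := by positivity
    nlinarith
  calc C * Real.exp (C * (K + K ^ (3 / 2 : ℝ) * k3))
      ≤ C * Real.exp (C * ((1 + k3) * (K + K ^ (3 / 2 : ℝ)))) := by gcongr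
    _ = C * 1 * Real.exp (C * (1 + k3) * (K + K ^ (3 / 2 : ℝ))) := by ring_nf
    _ ≤ C * (1 + k3) * Real.exp (C * (1 + k3) * (K + K ^ (3 / 2 : ℝ))) := by
        gcongr
        linarith

end Vale.Agent.P026.H441
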